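import Vale.Agent.P181.TS.Spec
import Vale.Agent.P181.S10.Spec

/-!
# P181, FT: all `b > a`, polylogarithmic form of S10 (cells in the first `b` columns)

The designs of TS (columns of polylogarithmic length) are used for short columns (`TS.MatT`) and
for the complements of long columns (`MatDualT`).
-/

set_option autoImplicit false

namespace Vale.Agent.P181.FT

open Finset Vale.Agent.P181 Vale.Agent.P181.H280 Vale.Agent.P181.H463 Vale.Agent.P181.H59
open Vale.Agent.P181.TS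

/-- `TS.TDes` with all classes non-empty -/
def TDesN (b N : ℕ) (len : Fin N → ℕ) : Prop :=
  ∃ (r g : ℕ) (cl : Fin b → Fin (g * r)) (y : Fin b → Fin (g * r) → Bool), 0 < r ∧
    (∀ i, ∃ u, cl u = i) ∧ (∀ c, g * r ≤ len c) ∧
    ∀ gd : Fin b → ℕ, (∀ p q, gd p ≤ gd q + 1) → ∑ p, gd p = ∑ c, len c →
    ∃ A : Fin N → Finset (Fin b), (∀ c, (A c).card = len c) ∧ (∀ p, dgr A p = gd p) ∧
      (∀ c, Reg r cl y (A c)) ∧
      ∀ ρ : Equiv.Perm (Fin b), ρ ≠ 1 →
        (∑ c, (miss cl (A c)).card < ∑ c, (miss cl ((A c).image ρ)).card) ∨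
        ((∑ c, (miss cl (A c)).card ≤ ∑ c, (miss cl ((A c).image ρ)).card) ∧
          ∃ c, Sing r cl y ((A c).image ρ))

/-- `TS.DesShort` with non-empty classes -/
def DesShortN : Prop := ∃ b0 : ℕ, ∀ b m N : ℕ, b0 ≤ b → 256 * (Nat.log 2 b + 4) ≤ m → m ^ 3 ≤ b →
  ((b : ℝ) / m) * Real.log b ^ 4 ≤ N →
  ∀ len : Fin N → ℕ, (∀ c, m ≤ len c ∧ len c ≤ 2 * m) → TDesN b N len

/-- **[FT-DES]** = `TS.DesStep` (helper798's proof, one more component) -/
def DesStepN : Prop := SzStmt → SysStmt → DColStmt → UStmt → AccStmt → FreeStmt → H59.FillStmt →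
  DesShortN

/-- **[FT-JAC]** complementary minors (block matrices; `ε` is the sign of the arrangement) -/
def JacStmt : Prop := ∀ (b l : ℕ) (hl : l ≤ b) (P : Matrix (Fin b) (Fin b) (Polynomial ℂ))
  (e : Fin (b - l) → Fin b) (U : Fin l → Fin b), Function.Injective e → Function.Injective U →
  (∀ i j, e i ≠ U j) → ∃ ε : ℤˣ,
    P.det * Matrix.det (Matrix.of fun r s : Fin l => P.adjugate (Fin.rev (Fin.castLE hl s)) (U r)) =
      ((ε : ℤ) : Polynomial ℂ) * (P.det ^ l *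
        Matrix.det (Matrix.of fun r s : Fin (b - l) => P (e r) (Fin.castLE (Nat.sub_le b l) s)))

/-- **[FT-DUAL]** the orbit inequality for long columns from a TS-design for the complements.
Point: `q_u(s) = adj(P)(b - 1 - s, u)`, `P(u, i) = TS.pt r cl y G b u i`; `det P` has a non-zero
constant term (all classes are non-empty, `TS.Ord3` for the set of all letters), the minor of the
first `l` coordinates at `U` is `± (det P) ^ (l - 1)` times `TS.mn` at the complement of `U`. -/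
def MatDualT : Prop :=
  ∀ (a b N : ℕ) (len : Fin N → ℕ) (lam η : Fin a → ℕ), 0 < b →
    TDesN b N (fun c => b - len c) → (∀ c, len c ≤ a ∧ len c ≤ b) → Antitone η →
    (∀ i : Fin a, (univ.filter fun c => (i : ℕ) < len c).card + η i = lam i) →
    ∑ i, lam i = a * b →
    gt a b η ≤ ((∑ i, η i) + b - 1).choose (b - 1) * (b.factorial * plethMult b a a lam)

/-- **[FT-DUAL]** as a step -/
def MatDualStep : Prop := JacStmt → Ord1 → Ord2 → Ord3 → MatDualT

/-- the orbit inequality for all families of columns `len` with property `Q` -/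
def OrbFor (a b N : ℕ) (len : Fin N → ℕ) : Prop :=
  ∀ lam η : Fin a → ℕ, (∀ c, len c ≤ a) → Antitone η →
    (∀ i : Fin a, (univ.filter fun c => (i : ℕ) < len c).card + η i = lam i) →
    ∑ i, lam i = a * b →
    gt a b η ≤ ((∑ i, η i) + b - 1).choose (b - 1) * (b.factorial * plethMult b a a lam)

/-- **[FT-CORE]** = `H188.core10` with the orbit inequalities as hypotheses -/
def CoreT : Prop := ∀ (a b C : ℕ) (z : ℝ), a ≤ b → 1 ≤ Real.log b →
  64 * Real.log b ^ (C + 1) ≤ z →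
  (∀ m N : ℕ, z ≤ m → m ≤ b / 2 → ((b : ℝ) / m) * Real.log b ^ C ≤ N →
    ∀ len : Fin N → ℕ, (∀ c, m ≤ len c ∧ len c ≤ 2 * m ∧ len c ≤ b / 2) → OrbFor a b N len) →
  (∀ m N : ℕ, z ≤ m → m ≤ b / 2 → ((b : ℝ) / m) * Real.log b ^ C ≤ N →
    ∀ len : Fin N → ℕ, (∀ c, len c ≤ b) →
      (∀ c, m ≤ b - len c ∧ b - len c ≤ 2 * m ∧ b - len c ≤ b / 2) → OrbFor a b N len) →
  ∀ lam : Fin a → ℕ, Antitone lam → ∑ i, lam i = a * b → ∀ i : Fin a,
    (b : ℝ) ^ 2 * z ≤ ((i : ℕ) + 1) * ((b : ℝ) - a) * min (b : ℝ) (lam i) →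
    plethMult a b a lam ≤ plethMult b a a lam

/-- **The theorem, all `a ≤ b`, all numbers of rows.** -/
def Fat : Prop := ∃ (C : ℝ) (c : ℕ), 0 < C ∧ ∀ (a b n : ℕ) (lam : Fin n → ℕ), a ≤ b →
  C * (1 + Real.log a) ^ c * (b : ℝ) ^ 2 ≤ ((b : ℝ) - a) * ∑ i, ((min b (lam i) : ℕ) : ℝ) →
  plethMult a b n lam ≤ plethMult b a n lam

/-- **The corollary for a short first row.** -/
def FatRow : Prop := ∃ (C : ℝ) (c : ℕ), 0 < C ∧ ∀ (a b n : ℕ) (lam : Fin n → ℕ), a ≤ b →
  (∀ i, C * (1 + Real.log a) ^ c * (lam i : ℝ) ≤ ((b : ℝ) - a) * a) →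
  plethMult a b n lam ≤ plethMult b a n lam

end Vale.Agent.P181.FT
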